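import Vale.Agent.P113.R2.H961.AdmDefs
import Vale.Agent.P113.R2.H796.Iface

/-! T4: statement of the flow module (proved in `Vale.Agent.P113.R2.H961.Flow`). -/

namespace Vale.Agent.P113

open MeasureTheory Set Vale.Agent.P113.R2.H796

/-- A periodic admissible divergence free field, zero for `t mod 1` in `[0,1/4]`, whose trajectories
follow the orbits of a system of pieces: at integer times (and at times in `[n, n+1/4]`) the
trajectory is at `(x n, y n, 0)`. -/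
def FlowStatement : Prop :=
  ∀ {N : ℕ} (P : Fin N → Piece), Good P →
    ∃ U : Fin 3 → ℝ → (Fin 3 → ℝ) → ℝ,
      (∀ i, Adm fun _ => U i) ∧
      (∀ i t x (n : ℤ), (n : ℝ) ≤ t → t ≤ n + 1 / 4 → U i t x = 0) ∧
      (∀ D : Fin 3 → ℝ → (Fin 3 → ℝ) → ℝ, (∀ i t, HasPD i (U i t) (D i t)) →
        ∀ t x, ∑ i, D i t x = 0) ∧
      ∀ x y : ℕ → ℚ, IsOrbit P x y → ∃ X : ℝ → Fin 3 → ℝ,
        (∀ t ≤ 1 / 4, X t = ![(x 0 : ℝ), (y 0 : ℝ), 0]) ∧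
        (∀ t, 0 ≤ t → HasDerivAt X (fun i => U i t (X t)) t) ∧
        (∀ t, 0 < X t 0 ∧ X t 0 < 1 ∧ 0 < X t 1 ∧ X t 1 < 1 ∧ 0 ≤ X t 2 ∧ X t 2 < 5 / 8) ∧
        ((∃ t, 0 ≤ t ∧ 3 / 8 < X t 2) ↔ Stops P x y)

end Vale.Agent.P113
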