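import Vale.Agent.P113.R2.Defs

namespace Vale.Agent.P113

open MeasureTheory Set

/-- `F` is given, for all `ν`, by one fixed list of valid periodic terms. -/
def Adm (F : ℝ → ℝ → (Fin 3 → ℝ) → ℝ) : Prop :=
  ∃ L : List Term, (∀ τ ∈ L, τ.Valid ∧ τ.isPeriodic = true) ∧
    ∀ ν t x, F ν t x = (L.map fun τ => τ.eval ν t x).sum

end Vale.Agent.P113
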