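import Vale.Agent.P113.R2.H961.Flow
import Vale.Agent.P113.R2.H540.Main

namespace Vale.Agent.P113

theorem main_statement : MainStatement := Vale.Agent.P113.R2.H540.main flow

end Vale.Agent.P113
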