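import Vale.Agent.P113.R2.H961.Flow2

namespace Vale.Agent.P113

open MeasureTheory Set Vale.Agent.P113.R2.H796

/-- an affine function with admissible coefficients, cut off outside `[1/8, 7/8]` -/
theorem affineX {α β : ℝ} (hα : AdmC α) (hβ : AdmC β) : ∃ A : ℝ → ℝ, AdmX A ∧
    ∀ s : ℝ, 1 / 8 ≤ s → s ≤ 7 / 8 → A s = α * s + β := by
  obtain ⟨w, v, hw, hv, h1, -, h3⟩ := window (a := 1 / 8) (b := 7 / 8) (δ := 1 / 8)
    (by norm_num) (by norm_num) (by norm_num) (by norm_num)
  refine ⟨fun s => α * v s + β * w s, (AdmX.cmul hα hv).add (AdmX.cmul hβ hw), ?_⟩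
  intro s hs1 hs2
  have e1 : ((1 / 8 : ℚ) : ℝ) = 1 / 8 := by norm_num
  have e2 : ((7 / 8 : ℚ) : ℝ) = 7 / 8 := by norm_num
  simp only
  rw [h3 s (by linarith) (by linarith), h1 s (by rw [e1]; exact hs1) (by rw [e2]; exact hs2)]
  ring

theorem hasPD_mul_right {F G : (Fin 3 → ℝ) → ℝ} {i : Fin 3} {D : (Fin 3 → ℝ) → ℝ}
    (hF : HasPD i F D) (hG : ∀ x s, G (Function.update x i s) = G x) :
    HasPD i (fun x => F x * G x) (fun x => D x * G x) := by
  intro x
  simp only [hG]
  exact (hF x).mul_const _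

theorem hasPD_mul_left {F G : (Fin 3 → ℝ) → ℝ} {i : Fin 3} {D : (Fin 3 → ℝ) → ℝ}
    (hF : HasPD i F D) (hG : ∀ x s, G (Function.update x i s) = G x) :
    HasPD i (fun x => G x * F x) (fun x => G x * D x) := by
  intro x
  simp only [hG]
  exact (hF x).const_mul _

theorem hasPD_sum {ι : Type} (s : Finset ι) {F D : ι → (Fin 3 → ℝ) → ℝ} {i : Fin 3}
    (h : ∀ k, HasPD i (F k) (D k)) :
    HasPD i (fun x => ∑ k ∈ s, F k x) (fun x => ∑ k ∈ s, D k x) := by
  intro x
  have := HasDerivAt.sum (u := s) (fun k _ => h k x)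
  convert this using 1
  funext r
  simp

theorem flow : FlowStatement := by
  classical
  intro N P hP
  -- the one-dimensional flows
  have fA := fun i => flow1 (a := (P i).a) (b := (P i).b) (hP.ha i)
  have fB := fun i => flow1 (a := (P i).c) (b := (P i).d) (hP.hc i)
  choose α β hα hβ hφ using fA
  choose γ δ hγ hδ hχ using fB
  have gA := fun i => affineX (hα i) (hβ i)
  have gB := fun i => affineX (hγ i) (hδ i)
  choose A hA hAe using gA
  choose B hB hBe using gB
  obtain ⟨ψ, hψ, hψ0, hψ1⟩ := levels P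
  obtain ⟨S, hS, hSe⟩ := rects (fun i => (P i).x0) (fun i => (P i).x1) (fun i => (P i).y0)
    (fun i => (P i).y1) (fun i => ⟨(hP.hx i).1, (hP.hx i).2.1.le, (hP.hx i).2.2⟩)
    (fun i => ⟨(hP.hy i).1, (hP.hy i).2.1.le, (hP.hy i).2.2⟩) hP.dom (level P)
  have mx : ∀ i, (P i).mapx (P i).x0 ≤ (P i).mapx (P i).x1 := by
    intro i
    have h1 := hP.ha i
    have h2 := (hP.hx i).2.1
    simp only [Piece.mapx]
    nlinarith
  have my : ∀ i, (P i).mapy (P i).y0 ≤ (P i).mapy (P i).y1 := by
    intro i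
    have h1 := hP.hc i
    have h2 := (hP.hy i).2.1
    simp only [Piece.mapy]
    nlinarith
  obtain ⟨S', hS', hSe'⟩ := rects (fun i => (P i).mapx (P i).x0) (fun i => (P i).mapx (P i).x1)
    (fun i => (P i).mapy (P i).y0) (fun i => (P i).mapy (P i).y1)
    (fun i => ⟨(hP.ix i).1, mx i, (hP.ix i).2⟩)
    (fun i => ⟨(hP.iy i).1, my i, (hP.iy i).2⟩) hP.img (level P)
  -- the field
  let U0 : ℝ → (Fin 3 → ℝ) → ℝ := fun t x => tau 2 t * ∑ i, A i (x 0) * deriv (ψ i) (x 2)
  let U1 : ℝ → (Fin 3 → ℝ) → ℝ := fun t x => tau 2 t * ∑ i, B i (x 1) * deriv (ψ i) (x 2)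
  let U2 : ℝ → (Fin 3 → ℝ) → ℝ := fun t x =>
    tau 1 t * S (x 0) (x 1) - tau 3 t * S' (x 0) (x 1) -
      tau 2 t * ∑ i, (deriv (A i) (x 0) + deriv (B i) (x 1)) * ψ i (x 2)
  let U : Fin 3 → ℝ → (Fin 3 → ℝ) → ℝ := ![U0, U1, U2]
  refine ⟨U, ?_, ?_, ?_, ?_⟩
  · -- admissible
    intro k
    fin_cases k
    · exact (tau_adm 2).mul (Adm.sum Finset.univ _ fun i _ => (hA i 0).mul ((hψ i).deriv 2))
    · exact (tau_adm 2).mul (Adm.sum Finset.univ _ fun i _ => (hB i 1).mul ((hψ i).deriv 2))
    · exact (((tau_adm 1).mul hS).sub ((tau_adm 3).mul hS')).sub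
        ((tau_adm 2).mul (Adm.sum Finset.univ _ fun i _ =>
          (((hA i).deriv 0).add ((hB i).deriv 1)).mul (hψ i 2)))
  · -- zero near integers
    intro k t x n h1 h2
    have hz : ∀ j : ℕ, 1 ≤ j → j ≤ 3 → tau j t = 0 := by
      intro j hj1 hj3
      apply tau_eq_zero hj3 n h1 (by linarith)
      left
      have : (1 : ℝ) ≤ j := by exact_mod_cast hj1
      linarith
    have z1 := hz 1 (by norm_num) (by norm_num)
    have z2 := hz 2 (by norm_num) (by norm_num)
    have z3 := hz 3 (by norm_num) (by norm_num)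
    fin_cases k
    · simp [U, U0, z2]
    · simp [U, U1, z2]
    · simp [U, U2, z1, z2, z3]
  · -- divergence free
    intro D hD t x
    have d0 : HasPD 0 (U 0 t) (fun x => tau 2 t * ∑ i, deriv (A i) (x 0) * deriv (ψ i) (x 2)) := by
      apply hasPD_mul_left
      · apply hasPD_sum
        intro k
        apply hasPD_mul_right (F := fun x : Fin 3 → ℝ => A k (x 0))
          (G := fun x : Fin 3 → ℝ => deriv (ψ k) (x 2))
        · intro x
          simp only [Function.update_self]
          exact (hA k).hasDerivAt (x 0)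
        · intro x s
          simp
      · intro x s
        rfl
    have d1 : HasPD 1 (U 1 t) (fun x => tau 2 t * ∑ i, deriv (B i) (x 1) * deriv (ψ i) (x 2)) := by
      apply hasPD_mul_left
      · apply hasPD_sum
        intro k
        apply hasPD_mul_right (F := fun x : Fin 3 → ℝ => B k (x 1))
          (G := fun x : Fin 3 → ℝ => deriv (ψ k) (x 2))
        · intro x
          simp only [Function.update_self]
          exact (hB k).hasDerivAt (x 1)
        · intro x s
          simp
      · intro x s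
        rfl
    have d2 : HasPD 2 (U 2 t) (fun x => -(tau 2 t *
        ∑ i, (deriv (A i) (x 0) + deriv (B i) (x 1)) * deriv (ψ i) (x 2))) := by
      have h1 : HasPD 2 (fun x : Fin 3 → ℝ => tau 2 t *
          ∑ i, (deriv (A i) (x 0) + deriv (B i) (x 1)) * ψ i (x 2)) (fun x => tau 2 t *
          ∑ i, (deriv (A i) (x 0) + deriv (B i) (x 1)) * deriv (ψ i) (x 2)) := by
        apply hasPD_mul_left
        · apply hasPD_sum
          intro k
          apply hasPD_mul_left (F := fun x : Fin 3 → ℝ => ψ k (x 2))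
            (G := fun x : Fin 3 → ℝ => deriv (A k) (x 0) + deriv (B k) (x 1))
          · intro x
            simp only [Function.update_self]
            exact (hψ k).hasDerivAt (x 2)
          · intro x s
            simp
        · intro x s
          rfl
      intro x
      have h2 := (h1 x).const_sub (tau 1 t * S (x 0) (x 1) - tau 3 t * S' (x 0) (x 1))
      have h3 : (fun s => U 2 t (Function.update x 2 s)) = fun s =>
          (tau 1 t * S (x 0) (x 1) - tau 3 t * S' (x 0) (x 1)) -
          (fun x : Fin 3 → ℝ => tau 2 t *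
          ∑ i, (deriv (A i) (x 0) + deriv (B i) (x 1)) * ψ i (x 2)) (Function.update x 2 s) := by
        funext s
        simp [U, U2]
      rw [h3]
      exact h2
    have e0 := (hD 0 t x).unique (d0 x)
    have e1 := (hD 1 t x).unique (d1 x)
    have e2 := (hD 2 t x).unique (d2 x)
    rw [Fin.sum_univ_three, e0, e1, e2]
    simp only [add_mul, Finset.sum_add_distrib]
    ring
  · -- trajectories
    intro x y hxy
    choose ι hι using hxy
    have hmem : ∀ n, (P (ι n)).Mem (x n) (y n) := fun n => (hι n).1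
    have hxn : ∀ n, x (n + 1) = (P (ι n)).mapx (x n) := fun n => (hι n).2.1
    have hyn : ∀ n, y (n + 1) = (P (ι n)).mapy (y n) := fun n => (hι n).2.2
    have e18 : ((1 / 8 : ℚ) : ℝ) = 1 / 8 := by norm_num
    have e78 : ((7 / 8 : ℚ) : ℝ) = 7 / 8 := by norm_num
    have xb : ∀ n, (1 / 8 : ℝ) ≤ x n ∧ (x n : ℝ) ≤ 7 / 8 := by
      intro n
      obtain ⟨h1, h2, h3, h4⟩ := hmem n
      rw [← e18, ← e78]
      have := hP.hx (ι n)
      exact ⟨by exact_mod_cast this.1.trans h1, by exact_mod_cast h2.trans this.2.2⟩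
    have yb : ∀ n, (1 / 8 : ℝ) ≤ y n ∧ (y n : ℝ) ≤ 7 / 8 := by
      intro n
      obtain ⟨h1, h2, h3, h4⟩ := hmem n
      rw [← e18, ← e78]
      have := hP.hy (ι n)
      exact ⟨by exact_mod_cast this.1.trans h3, by exact_mod_cast h4.trans this.2.2⟩
    have fx := fun n => hφ (ι n) (x n)
    have fy := fun n => hχ (ι n) (y n)
    choose φ φ0 φ1 φd φb using fx
    choose χ χ0 χ1 χd χb using fy
    have φ1' : ∀ n, φ n 1 = x (n + 1) := by
      intro n
      rw [φ1, hxn]
      simp [Piece.mapx]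
    have χ1' : ∀ n, χ n 1 = y (n + 1) := by
      intro n
      rw [χ1, hyn]
      simp [Piece.mapy]
    have φb' : ∀ n θ, 0 ≤ θ → θ ≤ 1 → (1 / 8 : ℝ) ≤ φ n θ ∧ φ n θ ≤ 7 / 8 := by
      intro n θ h0 h1
      apply φb n _ _ (xb n).1 (xb n).2 _ _ θ h0 h1
      · rw [← φ1, φ1']
        exact (xb (n + 1)).1
      · rw [← φ1, φ1']
        exact (xb (n + 1)).2
    have χb' : ∀ n θ, 0 ≤ θ → θ ≤ 1 → (1 / 8 : ℝ) ≤ χ n θ ∧ χ n θ ≤ 7 / 8 := by
      intro n θ h0 h1
      apply χb n _ _ (yb n).1 (yb n).2 _ _ θ h0 h1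
      · rw [← χ1, χ1']
        exact (yb (n + 1)).1
      · rw [← χ1, χ1']
        exact (yb (n + 1)).2
    -- the local trajectories
    let Φ : ℕ → ℝ → Fin 3 → ℝ := fun n t => ![φ n (Theta 2 (t - (n : ℤ))),
      χ n (Theta 2 (t - (n : ℤ))),
      level P (ι n) * (Theta 1 (t - (n : ℤ)) - Theta 3 (t - (n : ℤ)))]
    have hΦ : ∀ (n : ℕ) (t : ℝ), (n : ℝ) ≤ t → t ≤ n + 1 →
        HasDerivAt (Φ n) (fun i => U i t (Φ n t)) t := by
      intro n t h1 h2
      have h1' : (((n : ℤ) : ℝ)) ≤ t := by simpa using h1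
      have h2' : t ≤ ((n : ℤ) : ℝ) + 1 := by simpa using h2
      have T1 := Theta_hasDerivAt (j := 1) (by norm_num) (n : ℤ) h1' h2'
      have T2 := Theta_hasDerivAt (j := 2) (by norm_num) (n : ℤ) h1' h2'
      have T3 := Theta_hasDerivAt (j := 3) (by norm_num) (n : ℤ) h1' h2'
      -- during the second phase the third coordinate is at its level
      have hlev : tau 2 t = 0 ∨ (level P (ι n) : ℝ) *
          (Theta 1 (t - (n : ℤ)) - Theta 3 (t - (n : ℤ))) = level P (ι n) := by
        by_cases hc : t - (n : ℤ) ≤ (2 : ℕ) / 4 ∨ (((2 : ℕ) : ℝ) + 1) / 4 ≤ t - (n : ℤ)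
        · left
          exact tau_eq_zero (by norm_num) (n : ℤ) h1' h2' hc
        · right
          push Not at hc
          rw [Theta_of_ge (j := 1) (by push_cast at hc ⊢; linarith),
            Theta_of_le (j := 3) (by push_cast at hc ⊢; linarith)]
          ring
      have b2 := φb' n (Theta 2 (t - (n : ℤ))) (Theta_nonneg _ _) (Theta_le_one _ _)
      have c2 := χb' n (Theta 2 (t - (n : ℤ))) (Theta_nonneg _ _) (Theta_le_one _ _)
      rw [hasDerivAt_pi]
      intro k
      fin_cases k
      · have h3 := (φd n (Theta 2 (t - (n : ℤ)))).comp t T2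
        have h4 : U 0 t (Φ n t) = (α (ι n) * φ n (Theta 2 (t - (n : ℤ))) + β (ι n)) * tau 2 t := by
          simp only [U, U0, Φ, Matrix.cons_val_zero, Matrix.cons_val]
          rcases hlev with h | h
          · rw [h]
            ring
          · rw [h, Finset.sum_eq_single (ι n)]
            · rw [hψ1, if_pos rfl, hAe _ _ b2.1 b2.2]
              ring
            · intro j _ hj
              rw [hψ1, if_neg hj]
              ring
            · intro hh
              exact absurd (Finset.mem_univ _) hh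
        show HasDerivAt (fun t => φ n (Theta 2 (t - (n : ℤ)))) (U 0 t (Φ n t)) t
        rw [h4]
        exact h3
      · have h3 := (χd n (Theta 2 (t - (n : ℤ)))).comp t T2
        have h4 : U 1 t (Φ n t) = (γ (ι n) * χ n (Theta 2 (t - (n : ℤ))) + δ (ι n)) * tau 2 t := by
          simp only [U, U1, Φ, Matrix.cons_val_one, Matrix.cons_val]
          rcases hlev with h | h
          · rw [h]
            ring
          · rw [h, Finset.sum_eq_single (ι n)]
            · rw [hψ1, if_pos rfl, hBe _ _ c2.1 c2.2]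
              ring
            · intro j _ hj
              rw [hψ1, if_neg hj]
              ring
            · intro hh
              exact absurd (Finset.mem_univ _) hh
        show HasDerivAt (fun t => χ n (Theta 2 (t - (n : ℤ)))) (U 1 t (Φ n t)) t
        rw [h4]
        exact h3
      · have h3 := (T1.sub T3).const_mul (level P (ι n) : ℝ)
        have h4 : U 2 t (Φ n t) = (level P (ι n) : ℝ) * (tau 1 t - tau 3 t) := by
          simp only [U, U2, Φ, Matrix.cons_val]
          have p1 : tau 1 t * S (φ n (Theta 2 (t - (n : ℤ)))) (χ n (Theta 2 (t - (n : ℤ)))) =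
              tau 1 t * level P (ι n) := by
            by_cases hc : t - (n : ℤ) ≤ (1 : ℕ) / 4 ∨ (((1 : ℕ) : ℝ) + 1) / 4 ≤ t - (n : ℤ)
            · rw [tau_eq_zero (by norm_num) (n : ℤ) h1' h2' hc]
              ring
            · push Not at hc
              rw [Theta_of_le (j := 2) (by push_cast at hc ⊢; linarith), φ0, χ0]
              obtain ⟨q1, q2, q3, q4⟩ := hmem n
              rw [hSe (ι n) _ _ (by exact_mod_cast q1) (by exact_mod_cast q2)
                (by exact_mod_cast q3) (by exact_mod_cast q4)]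
          have p3 : tau 3 t * S' (φ n (Theta 2 (t - (n : ℤ)))) (χ n (Theta 2 (t - (n : ℤ)))) =
              tau 3 t * level P (ι n) := by
            by_cases hc : t - (n : ℤ) ≤ (3 : ℕ) / 4 ∨ (((3 : ℕ) : ℝ) + 1) / 4 ≤ t - (n : ℤ)
            · rw [tau_eq_zero (by norm_num) (n : ℤ) h1' h2' hc]
              ring
            · push Not at hc
              rw [Theta_of_ge (j := 2) (by push_cast at hc ⊢; linarith), φ1', χ1', hxn, hyn]
              obtain ⟨q1, q2, q3, q4⟩ := hmem n
              have ha := hP.ha (ι n)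
              have hc' := hP.hc (ι n)
              have r1 : (P (ι n)).mapx (P (ι n)).x0 ≤ (P (ι n)).mapx (x n) := by
                simp only [Piece.mapx]; nlinarith
              have r2 : (P (ι n)).mapx (x n) ≤ (P (ι n)).mapx (P (ι n)).x1 := by
                simp only [Piece.mapx]; nlinarith
              have r3 : (P (ι n)).mapy (P (ι n)).y0 ≤ (P (ι n)).mapy (y n) := by
                simp only [Piece.mapy]; nlinarith
              have r4 : (P (ι n)).mapy (y n) ≤ (P (ι n)).mapy (P (ι n)).y1 := by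
                simp only [Piece.mapy]; nlinarith
              rw [hSe' (ι n) _ _ (by exact_mod_cast r1) (by exact_mod_cast r2)
                (by exact_mod_cast r3) (by exact_mod_cast r4)]
          have p2 : tau 2 t * ∑ i, (deriv (A i) (φ n (Theta 2 (t - (n : ℤ)))) +
              deriv (B i) (χ n (Theta 2 (t - (n : ℤ))))) * ψ i ((level P (ι n) : ℝ) *
              (Theta 1 (t - (n : ℤ)) - Theta 3 (t - (n : ℤ)))) = 0 := by
            rcases hlev with h | h
            · rw [h]
              ring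
            · rw [h]
              simp only [hψ0, mul_zero, Finset.sum_const_zero]
          rw [p1, p2, p3]
          ring
        show HasDerivAt (fun t => (level P (ι n) : ℝ) *
          (Theta 1 (t - (n : ℤ)) - Theta 3 (t - (n : ℤ)))) (U 2 t (Φ n t)) t
        rw [h4]
        exact h3
    have hΦ0 : ∀ (n : ℕ) (t : ℝ), t ≤ n + 1 / 4 → Φ n t = ![(x n : ℝ), (y n : ℝ), 0] := by
      intro n t ht
      have k1 : t - ((n : ℤ) : ℝ) ≤ 1 / 4 := by
        have : ((n : ℤ) : ℝ) = n := by simp
        rw [this]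
        linarith
      simp only [Φ]
      rw [Theta_of_le (j := 1) (by push_cast at k1 ⊢; linarith),
        Theta_of_le (j := 2) (by push_cast at k1 ⊢; linarith),
        Theta_of_le (j := 3) (by push_cast at k1 ⊢; linarith), φ0, χ0]
      simp
    have hΦ1 : ∀ (n : ℕ), Φ n (n + 1) = ![(x (n + 1) : ℝ), (y (n + 1) : ℝ), 0] := by
      intro n
      have k1 : (n : ℝ) + 1 - ((n : ℤ) : ℝ) = 1 := by simp
      simp only [Φ, k1]
      rw [Theta_of_ge (j := 1) (by norm_num), Theta_of_ge (j := 2) (by norm_num),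
        Theta_of_ge (j := 3) (by norm_num), φ1', χ1']
      simp
    let X : ℝ → Fin 3 → ℝ := fun t => Φ ⌊t⌋₊ t
    have hX : ∀ (n : ℕ) (t : ℝ), (n : ℝ) ≤ t → t < n + 1 → X t = Φ n t := by
      intro n t h1 h2
      have : ⌊t⌋₊ = n := (Nat.floor_eq_iff ((Nat.cast_nonneg n).trans h1)).mpr ⟨h1, h2⟩
      simp only [X, this]
    have hXneg : ∀ t : ℝ, t < 1 → X t = Φ 0 t := by
      intro t ht
      have : ⌊t⌋₊ = 0 := Nat.floor_eq_zero.mpr ht
      simp only [X, this]
    refine ⟨X, ?_, ?_, ?_, ?_⟩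
    · intro t ht
      rw [hXneg t (by linarith)]
      exact hΦ0 0 t (by simpa using ht)
    · intro t ht
      obtain ⟨n, hn⟩ : ∃ n : ℕ, n = ⌊t⌋₊ := ⟨_, rfl⟩
      have h1 : (n : ℝ) ≤ t := by rw [hn]; exact Nat.floor_le ht
      have h2 : t < n + 1 := by rw [hn]; exact Nat.lt_floor_add_one t
      have hXt : X t = Φ n t := hX n t h1 h2
      rcases eq_or_lt_of_le h1 with h3 | h3
      · rcases Nat.eq_zero_or_pos n with h4 | h4
        · subst h4
          have : X =ᶠ[nhds t] Φ 0 := by
            filter_upwards [Iio_mem_nhds (show t < 1 by simpa using h2)] with s hs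
            exact hXneg s hs
          rw [hXt]
          exact (hΦ 0 t h1 h2.le).congr_of_eventuallyEq this
        · obtain ⟨m, rfl⟩ : ∃ m, n = m + 1 := ⟨n - 1, by omega⟩
          have h5 : (m : ℝ) ≤ t := by
            rw [← h3]; push_cast; linarith
          have h6 : t ≤ m + 1 := by
            rw [← h3]; push_cast; linarith
          have h7 : Φ m t = Φ (m + 1) t := by
            rw [hΦ0 (m + 1) t (by linarith)]
            have : t = (m : ℝ) + 1 := by rw [← h3]; push_cast; ring
            rw [this]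
            exact hΦ1 m
          have hr : HasDerivWithinAt X (fun i => U i t (X t)) (Ici t) t := by
            rw [hXt]
            apply (hΦ (m + 1) t h1 h2.le).hasDerivWithinAt.congr_of_eventuallyEq _ hXt
            have : Iio (((m + 1 : ℕ) : ℝ) + 1) ∈ nhds t := Iio_mem_nhds h2
            filter_upwards [mem_nhdsWithin_of_mem_nhds this, self_mem_nhdsWithin] with s hs1 hs2
            exact hX (m + 1) s (h1.trans hs2) hs1
          have hl : HasDerivWithinAt X (fun i => U i t (X t)) (Iic t) t := by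
            rw [hXt, ← h7]
            apply (hΦ m t h5 h6).hasDerivWithinAt.congr_of_eventuallyEq _ (hXt.trans h7.symm)
            have : Ioi ((m : ℝ)) ∈ nhds t := Ioi_mem_nhds (by rw [← h3]; push_cast; linarith)
            filter_upwards [mem_nhdsWithin_of_mem_nhds this, self_mem_nhdsWithin] with s hs1 hs2
            rcases eq_or_lt_of_le (show s ≤ t from hs2) with hs3 | hs3
            · rw [hs3, hXt, h7]
            · exact hX m s (le_of_lt hs1) (by
                have : t = (m : ℝ) + 1 := by rw [← h3]; push_cast; ring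
                linarith)
          have := hl.union hr
          rw [Iic_union_Ici] at this
          exact hasDerivWithinAt_univ.mp this
      · have : X =ᶠ[nhds t] Φ n := by
          filter_upwards [Ioo_mem_nhds h3 h2] with s hs
          exact hX n s hs.1.le hs.2
        rw [hXt]
        exact (hΦ n t h1 h2.le).congr_of_eventuallyEq this
    · intro t
      have hlv : ∀ i, (0 : ℝ) ≤ level P i ∧ (level P i : ℝ) < 5 / 8 := by
        intro i
        have hN : (0 : ℚ) < 1 / (8 * ((N : ℚ) + 1)) := by positivity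
        have e58 : ((5 / 8 : ℚ) : ℝ) = 5 / 8 := by norm_num
        have l1 := level_pos P i
        have l2 : level P i < 5 / 8 := by
          rcases hs : (P i).stop with _ | _
          · have := level_nonstop P i hs
            linarith
          · have := (level_stop P i hs).2
            linarith
        rw [← e58]
        exact ⟨by exact_mod_cast (by linarith : (0 : ℚ) ≤ level P i), by exact_mod_cast l2⟩
      have b2 := φb' ⌊t⌋₊ (Theta 2 (t - (⌊t⌋₊ : ℤ))) (Theta_nonneg _ _) (Theta_le_one _ _)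
      have c2 := χb' ⌊t⌋₊ (Theta 2 (t - (⌊t⌋₊ : ℤ))) (Theta_nonneg _ _) (Theta_le_one _ _)
      have g1 : X t 0 = φ ⌊t⌋₊ (Theta 2 (t - (⌊t⌋₊ : ℤ))) := rfl
      have g2 : X t 1 = χ ⌊t⌋₊ (Theta 2 (t - (⌊t⌋₊ : ℤ))) := rfl
      have g3 : X t 2 = level P (ι ⌊t⌋₊) *
        (Theta 1 (t - (⌊t⌋₊ : ℤ)) - Theta 3 (t - (⌊t⌋₊ : ℤ))) := rfl
      have hθ : 0 ≤ Theta 1 (t - (⌊t⌋₊ : ℤ)) - Theta 3 (t - (⌊t⌋₊ : ℤ)) ∧
          Theta 1 (t - (⌊t⌋₊ : ℤ)) - Theta 3 (t - (⌊t⌋₊ : ℤ)) ≤ 1 := by
        have u1 := Theta_nonneg 1 (t - (⌊t⌋₊ : ℤ))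
        have u2 := Theta_nonneg 3 (t - (⌊t⌋₊ : ℤ))
        have u3 := Theta_le_one 1 (t - (⌊t⌋₊ : ℤ))
        have u4 := Theta_le_one 3 (t - (⌊t⌋₊ : ℤ))
        refine ⟨?_, by linarith⟩
        rcases le_total (t - (⌊t⌋₊ : ℤ)) (3 / 4) with h | h
        · rw [Theta_of_le (j := 3) (by push_cast at h ⊢; linarith)]
          linarith
        · rw [Theta_of_ge (j := 1) (by push_cast at h ⊢; linarith)]
          linarith
      have hl := hlv (ι ⌊t⌋₊)
      rw [g1, g2, g3]
      refine ⟨by linarith [b2.1], by linarith [b2.2], by linarith [c2.1], by linarith [c2.2],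
        mul_nonneg hl.1 hθ.1, ?_⟩
      nlinarith [hl.1, hl.2, hθ.1, hθ.2]
    · constructor
      · rintro ⟨t, ht0, ht⟩
        refine ⟨⌊t⌋₊, ι ⌊t⌋₊, ?_, hmem _⟩
        by_contra hs
        have hs' : (P (ι ⌊t⌋₊)).stop = false := by simpa using hs
        have l1 := level_nonstop P _ hs'
        have hN : (0 : ℚ) < 1 / (8 * ((N : ℚ) + 1)) := by positivity
        have l2 : (level P (ι ⌊t⌋₊) : ℝ) ≤ 1 / 4 := by
          have e : ((1 / 4 : ℚ) : ℝ) = 1 / 4 := by norm_num
          rw [← e]
          exact_mod_cast (by linarith : level P (ι ⌊t⌋₊) ≤ 1 / 4)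
        have l3 : (0 : ℝ) ≤ level P (ι ⌊t⌋₊) := by
          have := level_pos P (ι ⌊t⌋₊)
          exact_mod_cast (by linarith : (0 : ℚ) ≤ level P (ι ⌊t⌋₊))
        have g3 : X t 2 = level P (ι ⌊t⌋₊) *
          (Theta 1 (t - (⌊t⌋₊ : ℤ)) - Theta 3 (t - (⌊t⌋₊ : ℤ))) := rfl
        have u2 := Theta_nonneg 3 (t - (⌊t⌋₊ : ℤ))
        have u3 := Theta_le_one 1 (t - (⌊t⌋₊ : ℤ))
        have : X t 2 ≤ 1 / 4 := by
          rw [g3]
          calc (level P (ι ⌊t⌋₊) : ℝ) * (Theta 1 (t - (⌊t⌋₊ : ℤ)) - Theta 3 (t - (⌊t⌋₊ : ℤ)))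
              ≤ level P (ι ⌊t⌋₊) * 1 := by
                apply mul_le_mul_of_nonneg_left _ l3
                linarith
            _ ≤ 1 / 4 := by linarith
        linarith
      · rintro ⟨n, i, hs, hm⟩
        have hi : ι n = i := by
          by_contra hne
          obtain ⟨a1, a2, a3, a4⟩ := hmem n
          obtain ⟨b1, b2, b3, b4⟩ := hm
          rcases hP.dom _ _ hne with h | h | h | h <;> linarith
        refine ⟨n + 1 / 2, by positivity, ?_⟩
        rw [hX n (n + 1 / 2) (by linarith) (by linarith)]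
        have g3 : Φ n (n + 1 / 2) 2 = level P (ι n) *
          (Theta 1 (n + 1 / 2 - (n : ℤ)) - Theta 3 (n + 1 / 2 - (n : ℤ))) := rfl
        have k1 : (n : ℝ) + 1 / 2 - ((n : ℤ) : ℝ) = 1 / 2 := by simp
        rw [g3, k1, Theta_of_ge (j := 1) (by norm_num), Theta_of_le (j := 3) (by norm_num), hi]
        have l1 := (level_stop P i hs).1
        have e : ((3 / 8 : ℚ) : ℝ) = 3 / 8 := by norm_num
        have l2 : (3 / 8 : ℝ) < level P i := by
          rw [← e]
          exact_mod_cast l1
        linarith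

end Vale.Agent.P113
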