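import Vale.Agent.P113.R2.H961.Window

namespace Vale.Agent.P113

open MeasureTheory Set

/-- the affine one-dimensional flow which moves `x` to `a x + b` in time one -/
theorem flow1 {a b : ℚ} (ha : 0 < a) : ∃ α β : ℝ, AdmC α ∧ AdmC β ∧
    ∀ x : ℝ, ∃ φ : ℝ → ℝ, φ 0 = x ∧ φ 1 = a * x + b ∧
      (∀ θ, HasDerivAt φ (α * φ θ + β) θ) ∧
      ∀ l r : ℝ, l ≤ x → x ≤ r → l ≤ a * x + b → a * x + b ≤ r →
        ∀ θ, 0 ≤ θ → θ ≤ 1 → l ≤ φ θ ∧ φ θ ≤ r := by
  have ha' : (0 : ℝ) < a := by exact_mod_cast ha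
  by_cases h1 : a = 1
  · subst h1
    refine ⟨0, b, AdmC.zero, AdmC.rat b, fun x => ⟨fun θ => x + θ * b, by simp, by simp, ?_, ?_⟩⟩
    · intro θ
      have h := ((hasDerivAt_id θ).mul_const (b : ℝ)).const_add x
      simpa using h
    · intro l r h1 h2 h3 h4 θ h5 h6
      simp only [Rat.cast_one, one_mul] at h3 h4
      constructor <;> nlinarith
  · have h1' : (1 : ℝ) - a ≠ 0 := by
      intro h
      apply h1
      have : (a : ℝ) = 1 := by linarith
      exact_mod_cast this
    have hfix : (a : ℝ) * (b / (1 - a)) + b = b / (1 - a) := by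
      field_simp
      ring
    refine ⟨Real.log a, -(Real.log a * ((b / (1 - a) : ℚ) : ℝ)), AdmC.log ha,
      ((AdmC.log ha).mul (AdmC.rat _)).neg, fun x => ?_⟩
    push_cast
    set y : ℝ := (b : ℝ) / (1 - a) with hy
    refine ⟨fun θ => y + Real.exp (θ * Real.log a) * (x - y), by simp, ?_, ?_, ?_⟩
    · simp only [one_mul, Real.exp_log ha']
      linarith
    · intro θ
      have h := (((hasDerivAt_id θ).mul_const (Real.log a)).exp.mul_const (x - y)).const_add y
      simp only [id_eq, one_mul] at h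
      exact h.congr_deriv (by ring)
    · intro l r h1 h2 h3 h4 θ h5 h6
      have key : ∀ c : ℝ, (1 ≤ c ∧ c ≤ a) ∨ (a ≤ c ∧ c ≤ 1) →
          l ≤ y + c * (x - y) ∧ y + c * (x - y) ≤ r := by
        intro c hc
        have e1 : (a : ℝ) * x + b = y + a * (x - y) := by linarith
        rw [e1] at h3 h4
        have e2 : x = y + 1 * (x - y) := by ring
        rcases hc with ⟨hc1, hc2⟩ | ⟨hc1, hc2⟩
        · rcases le_total 0 (x - y) with h | h
          · constructor <;> nlinarith
          · constructor <;> nlinarith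
        · rcases le_total 0 (x - y) with h | h
          · constructor <;> nlinarith
          · constructor <;> nlinarith
      apply key
      rcases le_total 1 (a : ℝ) with h | h
      · left
        have hlog : 0 ≤ Real.log a := Real.log_nonneg h
        constructor
        · exact Real.one_le_exp (mul_nonneg h5 hlog)
        · calc Real.exp (θ * Real.log a) ≤ Real.exp (Real.log a) := by
                apply Real.exp_le_exp.mpr
                nlinarith
            _ = a := Real.exp_log ha'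
      · right
        have hlog : Real.log a ≤ 0 := Real.log_nonpos ha'.le h
        constructor
        · calc (a : ℝ) = Real.exp (Real.log a) := (Real.exp_log ha').symm
            _ ≤ Real.exp (θ * Real.log a) := by
                apply Real.exp_le_exp.mpr
                nlinarith
        · rw [Real.exp_le_one_iff]
          exact mul_nonpos_of_nonneg_of_nonpos h5 hlog

/-- the time profiles -/
noncomputable def tau (j : ℕ) (t : ℝ) : ℝ := 8 * (kappa⁻¹ * per (fun s => rho (8 * s - (2 * j + 1))) t)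

/-- their integrals over one period -/
noncomputable def Theta (j : ℕ) (s : ℝ) : ℝ := kappa⁻¹ * sigma (8 * s - (2 * j + 1))

theorem tau_adm (j : ℕ) : Adm fun _ t _ => tau j t := by
  obtain ⟨rs, hrs⟩ := exists_Rt 8
  obtain ⟨rb, hrb⟩ := exists_Rt (2 * j + 1)
  let g : Bump := ⟨0, rs, rb, Sum.inl 0⟩
  have hg : g.Valid := by
    refine ⟨by simp only [g, hrs]; norm_num, ?_⟩
    intro l hl'
    simp [g] at hl'
  have hev : g.eval = fun s => rho (8 * s - (2 * j + 1)) := by
    funext s
    simp only [g, Bump.eval, hrs, hrb, pow_zero, one_mul, iteratedDeriv_zero]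
    push_cast
    rfl
  have h := (Adm.const 8).mul (Adm.mul AdmC.kappa_inv (Adm.time g hg))
  rw [hev] at h
  simpa [tau] using h

theorem tau_eq {j : ℕ} (hj : j ≤ 3) {t : ℝ} (n : ℤ) (h1 : (n : ℝ) ≤ t) (h2 : t ≤ n + 1) :
    tau j t = 8 * (kappa⁻¹ * rho (8 * (t - n) - (2 * j + 1))) := by
  unfold tau
  rw [per_eq _ n h1 h2]
  intro s hs
  have hj' : (j : ℝ) ≤ 3 := by exact_mod_cast hj
  have hj0 : (0 : ℝ) ≤ j := by positivity
  apply rho_eq_zero
  rcases hs with hs | hs
  · rw [abs_of_nonpos (by linarith)]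
    linarith
  · rw [abs_of_nonneg (by linarith)]
    linarith

theorem Theta_hasDerivAt {j : ℕ} (hj : j ≤ 3) {t : ℝ} (n : ℤ) (h1 : (n : ℝ) ≤ t)
    (h2 : t ≤ n + 1) : HasDerivAt (fun t => Theta j (t - n)) (tau j t) t := by
  rw [tau_eq hj n h1 h2]
  unfold Theta
  have h3 : HasDerivAt (fun t : ℝ => 8 * (t - n) - (2 * j + 1)) 8 t := by
    have := (((hasDerivAt_id t).sub_const (n : ℝ)).const_mul 8).sub_const (2 * (j : ℝ) + 1)
    simpa using this
  have h4 := ((sigma_hasDerivAt (8 * (t - n) - (2 * j + 1))).comp t h3).const_mul kappa⁻¹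
  exact h4.congr_deriv (by ring)

theorem Theta_of_le {j : ℕ} {s : ℝ} (h : s ≤ j / 4) : Theta j s = 0 := by
  unfold Theta
  rw [sigma_of_le (by linarith), mul_zero]

theorem Theta_of_ge {j : ℕ} {s : ℝ} (h : ((j : ℝ) + 1) / 4 ≤ s) : Theta j s = 1 := by
  unfold Theta
  rw [sigma_of_ge (by linarith)]
  exact inv_mul_cancel₀ kappa_pos.ne'

theorem sigma_mono : Monotone sigma := by
  apply monotone_of_deriv_nonneg
  · intro s
    exact (sigma_hasDerivAt s).differentiableAt
  · intro s
    rw [(sigma_hasDerivAt s).deriv]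
    exact rho_nonneg s

theorem Theta_mono (j : ℕ) : Monotone (Theta j) := by
  intro s t hst
  unfold Theta
  apply mul_le_mul_of_nonneg_left _ (inv_nonneg.mpr kappa_pos.le)
  apply sigma_mono
  linarith

theorem Theta_nonneg (j : ℕ) (s : ℝ) : 0 ≤ Theta j s := by
  rcases le_total s (j / 4) with h | h
  · rw [Theta_of_le h]
  · calc (0 : ℝ) = Theta j (j / 4) := (Theta_of_le le_rfl).symm
      _ ≤ Theta j s := Theta_mono j h

theorem Theta_le_one (j : ℕ) (s : ℝ) : Theta j s ≤ 1 := by
  rcases le_total (((j : ℝ) + 1) / 4) s with h | h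
  · rw [Theta_of_ge h]
  · calc Theta j s ≤ Theta j (((j : ℝ) + 1) / 4) := Theta_mono j h
      _ = 1 := Theta_of_ge le_rfl

/-- outside its slot a profile vanishes -/
theorem tau_eq_zero {j : ℕ} (hj : j ≤ 3) {t : ℝ} (n : ℤ) (h1 : (n : ℝ) ≤ t) (h2 : t ≤ n + 1)
    (h : t - n ≤ j / 4 ∨ ((j : ℝ) + 1) / 4 ≤ t - n) : tau j t = 0 := by
  rw [tau_eq hj n h1 h2, rho_eq_zero]
  · simp
  · rcases h with h | h
    · rw [abs_of_nonpos (by linarith)]
      linarith
    · rw [abs_of_nonneg (by linarith)]
      linarith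

end Vale.Agent.P113
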