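import Vale.Agent.P113.R2.H961.Flow1
import Vale.Agent.P113.R2.H961.FlowIface

namespace Vale.Agent.P113

open MeasureTheory Set Vale.Agent.P113.R2.H796

theorem exists_gap {ι : Type} [Finite ι] (f : ι → ℚ) (hf : ∀ i, 0 < f i) (c : ℚ) (hc : 0 < c) :
    ∃ δ : ℚ, 0 < δ ∧ δ ≤ c ∧ ∀ i, δ ≤ f i := by
  classical
  have := Fintype.ofFinite ι
  obtain ⟨δ, h1, h2, h3⟩ : ∃ δ : ℚ, 0 < δ ∧ δ ≤ c ∧ ∀ i ∈ (Finset.univ : Finset ι), δ ≤ f i := by
    generalize (Finset.univ : Finset ι) = s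
    induction s using Finset.induction_on with
    | empty => exact ⟨c, hc, le_rfl, by simp⟩
    | insert a s ha ih =>
      obtain ⟨δ, h1, h2, h3⟩ := ih
      refine ⟨min δ (f a), lt_min h1 (hf a), (min_le_left _ _).trans h2, ?_⟩
      intro i hi
      rcases Finset.mem_insert.mp hi with h | h
      · subst h
        exact min_le_right _ _
      · exact (min_le_left _ _).trans (h3 i h)
  exact ⟨δ, h1, h2, fun i => h3 i (Finset.mem_univ i)⟩

/-- a function with given values on finitely many disjoint rectangles -/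
theorem rects {N : ℕ} (x0 x1 y0 y1 : Fin N → ℚ)
    (hx : ∀ i, 1 / 8 ≤ x0 i ∧ x0 i ≤ x1 i ∧ x1 i ≤ 7 / 8)
    (hy : ∀ i, 1 / 8 ≤ y0 i ∧ y0 i ≤ y1 i ∧ y1 i ≤ 7 / 8)
    (hd : ∀ i j, i ≠ j → x1 i < x0 j ∨ x1 j < x0 i ∨ y1 i < y0 j ∨ y1 j < y0 i)
    (c : Fin N → ℚ) :
    ∃ S : ℝ → ℝ → ℝ, (Adm fun _ _ x => S (x 0) (x 1)) ∧
      ∀ i (x y : ℝ), (x0 i : ℝ) ≤ x → x ≤ x1 i → (y0 i : ℝ) ≤ y → y ≤ y1 i → S x y = c i := by
  classical
  have hgap : ∀ p : Fin N × Fin N, ∃ g : ℚ, 0 < g ∧ (p.1 ≠ p.2 → x1 p.1 + g ≤ x0 p.2 ∨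
      x1 p.2 + g ≤ x0 p.1 ∨ y1 p.1 + g ≤ y0 p.2 ∨ y1 p.2 + g ≤ y0 p.1) := by
    rintro ⟨i, j⟩
    by_cases hij : i = j
    · exact ⟨1, one_pos, fun h => absurd hij h⟩
    · rcases hd i j hij with h | h | h | h
      · exact ⟨x0 j - x1 i, by linarith, fun _ => Or.inl (by simp)⟩
      · exact ⟨x0 i - x1 j, by linarith, fun _ => Or.inr (Or.inl (by simp))⟩
      · exact ⟨y0 j - y1 i, by linarith, fun _ => Or.inr (Or.inr (Or.inl (by simp)))⟩
      · exact ⟨y0 i - y1 j, by linarith, fun _ => Or.inr (Or.inr (Or.inr (by simp)))⟩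
  choose g hg0 hg using hgap
  obtain ⟨δ, hδ0, hδ1, hδ⟩ := exists_gap g hg0 (1 / 8) (by norm_num)
  have hwx : ∀ i, ∃ w : ℝ → ℝ, AdmX w ∧ (∀ s : ℝ, (x0 i : ℝ) ≤ s → s ≤ x1 i → w s = 1) ∧
      (∀ s : ℝ, 0 ≤ s → s ≤ 1 → (s ≤ (x0 i : ℝ) - δ ∨ (x1 i : ℝ) + δ ≤ s) → w s = 0) := by
    intro i
    obtain ⟨w, v, h1, -, h2, h3, -⟩ := window (a := x0 i) (b := x1 i) (δ := δ) (hx i).2.1 hδ0
      (by linarith [(hx i).1]) (by linarith [(hx i).2.2])
    exact ⟨w, h1, h2, h3⟩
  have hwy : ∀ i, ∃ w : ℝ → ℝ, AdmX w ∧ (∀ s : ℝ, (y0 i : ℝ) ≤ s → s ≤ y1 i → w s = 1) ∧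
      (∀ s : ℝ, 0 ≤ s → s ≤ 1 → (s ≤ (y0 i : ℝ) - δ ∨ (y1 i : ℝ) + δ ≤ s) → w s = 0) := by
    intro i
    obtain ⟨w, v, h1, -, h2, h3, -⟩ := window (a := y0 i) (b := y1 i) (δ := δ) (hy i).2.1 hδ0
      (by linarith [(hy i).1]) (by linarith [(hy i).2.2])
    exact ⟨w, h1, h2, h3⟩
  choose h hA h1 h0 using hwx
  choose k kA k1 k0 using hwy
  refine ⟨fun x y => ∑ i, (c i : ℝ) * (h i x * k i y), ?_, ?_⟩
  · exact Adm.sum Finset.univ _ fun i _ => (Adm.const (c i)).mul ((hA i 0).mul (kA i 1))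
  · intro i x y hx0 hx1 hy0 hy1
    have e1 : ((1 / 8 : ℚ) : ℝ) = 1 / 8 := by norm_num
    have e2 : ((7 / 8 : ℚ) : ℝ) = 7 / 8 := by norm_num
    have b1 : (1 / 8 : ℝ) ≤ x0 i := by rw [← e1]; exact_mod_cast (hx i).1
    have b2 : (x1 i : ℝ) ≤ 7 / 8 := by rw [← e2]; exact_mod_cast (hx i).2.2
    have b3 : (1 / 8 : ℝ) ≤ y0 i := by rw [← e1]; exact_mod_cast (hy i).1
    have b4 : (y1 i : ℝ) ≤ 7 / 8 := by rw [← e2]; exact_mod_cast (hy i).2.2
    simp only
    rw [Finset.sum_eq_single i]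
    · rw [h1 i x hx0 hx1, k1 i y hy0 hy1]
      ring
    · intro j _ hji
      have hgg := hg (j, i) hji
      have hd' := hδ (j, i)
      simp only at hgg hd'
      rcases hgg with hgg | hgg | hgg | hgg
      · have : (x1 j : ℝ) + δ ≤ x0 i := by exact_mod_cast (by linarith : x1 j + δ ≤ x0 i)
        rw [h0 j x (by linarith) (by linarith) (Or.inr (by linarith))]
        ring
      · have : (x1 i : ℝ) + δ ≤ x0 j := by exact_mod_cast (by linarith : x1 i + δ ≤ x0 j)
        rw [h0 j x (by linarith) (by linarith) (Or.inl (by linarith))]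
        ring
      · have : (y1 j : ℝ) + δ ≤ y0 i := by exact_mod_cast (by linarith : y1 j + δ ≤ y0 i)
        rw [k0 j y (by linarith) (by linarith) (Or.inr (by linarith))]
        ring
      · have : (y1 i : ℝ) + δ ≤ y0 j := by exact_mod_cast (by linarith : y1 i + δ ≤ y0 j)
        rw [k0 j y (by linarith) (by linarith) (Or.inl (by linarith))]
        ring
    · intro h
      exact absurd (Finset.mem_univ i) h

/-- the level of a piece -/
def level {N : ℕ} (P : Fin N → Piece) (i : Fin N) : ℚ :=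
  (if (P i).stop then 3 / 8 else 0) + ((i : ℕ) + 1) / (4 * (N + 1))

theorem level_pos {N : ℕ} (P : Fin N → Piece) (i : Fin N) :
    2 * (1 / (8 * ((N : ℚ) + 1))) ≤ level P i := by
  have hN : (0 : ℚ) < (N : ℚ) + 1 := by positivity
  have h1 : 2 * (1 / (8 * ((N : ℚ) + 1))) = 1 / (4 * ((N : ℚ) + 1)) := by field_simp; norm_num
  have h2 : 1 / (4 * ((N : ℚ) + 1)) ≤ ((i : ℕ) + 1) / (4 * ((N : ℚ) + 1)) := by
    apply div_le_div_of_nonneg_right _ (by positivity)
    have : (0 : ℚ) ≤ ((i : ℕ) : ℚ) := by positivity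
    linarith
  unfold level
  split_ifs <;> linarith

theorem level_aux {N : ℕ} (i : Fin N) :
    (((i : ℕ) : ℚ) + 1) / (4 * (N + 1)) + 1 / (4 * ((N : ℚ) + 1)) ≤ 1 / 4 := by
  have hN : (0 : ℚ) < (N : ℚ) + 1 := by positivity
  rw [← add_div, div_le_iff₀ (by positivity)]
  have : (((i : ℕ) : ℚ)) + 1 ≤ N := by exact_mod_cast i.2
  linarith

theorem level_stop {N : ℕ} (P : Fin N → Piece) (i : Fin N) (h : (P i).stop = true) :
    3 / 8 < level P i ∧ level P i + 2 * (1 / (8 * ((N : ℚ) + 1))) ≤ 5 / 8 := by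
  have hN : (0 : ℚ) < (N : ℚ) + 1 := by positivity
  have h1 : 2 * (1 / (8 * ((N : ℚ) + 1))) = 1 / (4 * ((N : ℚ) + 1)) := by field_simp; norm_num
  have h2 := level_aux i
  have h3 : 0 < (((i : ℕ) : ℚ) + 1) / (4 * (N + 1)) := by positivity
  unfold level
  rw [if_pos h, h1]
  constructor <;> linarith

theorem level_nonstop {N : ℕ} (P : Fin N → Piece) (i : Fin N) (h : (P i).stop = false) :
    level P i + 2 * (1 / (8 * ((N : ℚ) + 1))) ≤ 1 / 4 := by
  have h1 : 2 * (1 / (8 * ((N : ℚ) + 1))) = 1 / (4 * ((N : ℚ) + 1)) := by field_simp; norm_num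
  have h2 := level_aux i
  unfold level
  rw [h, h1]
  simp only [Bool.false_eq_true, if_false]
  linarith

theorem level_sep {N : ℕ} (P : Fin N → Piece) (i j : Fin N) (h : i ≠ j) :
    level P i + 2 * (1 / (8 * ((N : ℚ) + 1))) ≤ level P j ∨
    level P j + 2 * (1 / (8 * ((N : ℚ) + 1))) ≤ level P i := by
  have hN : (0 : ℚ) < (N : ℚ) + 1 := by positivity
  have h1 : 2 * (1 / (8 * ((N : ℚ) + 1))) = 1 / (4 * ((N : ℚ) + 1)) := by field_simp; norm_num
  have key : ∀ a b : Fin N, (a : ℕ) < b →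
      (((a : ℕ) : ℚ) + 1) / (4 * (N + 1)) + 1 / (4 * ((N : ℚ) + 1)) ≤
      (((b : ℕ) : ℚ) + 1) / (4 * (N + 1)) := by
    intro a b hab
    rw [← add_div]
    apply div_le_div_of_nonneg_right _ (by positivity)
    have : (((a : ℕ) : ℚ)) + 1 ≤ ((b : ℕ) : ℚ) := by exact_mod_cast hab
    linarith
  have hp := level_pos P
  rcases hsi : (P i).stop with _ | _ <;> rcases hsj : (P j).stop with _ | _
  · rcases lt_or_gt_of_ne (fun h' => h (Fin.ext h') : (i : ℕ) ≠ j) with hlt | hlt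
    · left
      have := key i j hlt
      rw [h1]
      simp only [level, hsi, hsj, Bool.false_eq_true, if_false]
      linarith
    · right
      have := key j i hlt
      rw [h1]
      simp only [level, hsi, hsj, Bool.false_eq_true, if_false]
      linarith
  · left
    have a1 := level_nonstop P i hsi
    have a2 := (level_stop P j hsj).1
    linarith
  · right
    have a1 := level_nonstop P j hsj
    have a2 := (level_stop P i hsi).1
    linarith
  · rcases lt_or_gt_of_ne (fun h' => h (Fin.ext h') : (i : ℕ) ≠ j) with hlt | hlt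
    · left
      have := key i j hlt
      rw [h1]
      simp only [level, hsi, hsj, if_true]
      linarith
    · right
      have := key j i hlt
      rw [h1]
      simp only [level, hsi, hsj, if_true]
      linarith

/-- functions which select a level -/
theorem levels {N : ℕ} (P : Fin N → Piece) : ∃ ψ : Fin N → ℝ → ℝ, (∀ i, AdmX (ψ i)) ∧
    (∀ i j, ψ i (level P j) = 0) ∧ ∀ i j, deriv (ψ i) (level P j) = if i = j then 1 else 0 := by
  classical
  have hN : (0 : ℚ) < (N : ℚ) + 1 := by positivity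
  set δ : ℚ := 1 / (8 * ((N : ℚ) + 1)) with hδ
  have hδ0 : 0 < δ := by positivity
  have hhi : ∀ i, level P i + 2 * δ ≤ 5 / 8 := by
    intro i
    rcases hs : (P i).stop with _ | _
    · have := level_nonstop P i hs
      linarith
    · exact (level_stop P i hs).2
  have hw : ∀ i, ∃ w v : ℝ → ℝ, AdmX w ∧ AdmX v ∧
      (∀ s : ℝ, (level P i : ℝ) ≤ s → s ≤ level P i → w s = 1) ∧
      (∀ s : ℝ, 0 ≤ s → s ≤ 1 → (s ≤ (level P i : ℝ) - δ ∨ (level P i : ℝ) + δ ≤ s) → w s = 0) ∧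
      ∀ s : ℝ, 0 ≤ s → s ≤ 1 → v s = s * w s := by
    intro i
    have h1 := level_pos P i
    have h2 := hhi i
    exact window le_rfl hδ0 (by linarith) (by linarith)
  choose w v hwA hvA hw1 hw0 hv using hw
  have hδ0' : (0 : ℝ) < δ := by exact_mod_cast hδ0
  have lo' : ∀ i, 2 * δ ≤ level P i := fun i => level_pos P i
  have sep : ∀ i j, i ≠ j → level P i + 2 * δ ≤ level P j ∨ level P j + 2 * δ ≤ level P i :=
    fun i j h => level_sep P i j h
  have lo : ∀ i, 2 * (δ : ℝ) ≤ level P i := fun i => by exact_mod_cast lo' i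
  have hi : ∀ i, (level P i : ℝ) + 2 * δ ≤ 5 / 8 := fun i => by
    have h := hhi i
    have e : ((5 / 8 : ℚ) : ℝ) = 5 / 8 := by norm_num
    rw [← e]
    exact_mod_cast h
  have hψ : ∀ i, ∀ s : ℝ, 0 ≤ s → s ≤ 1 →
      v i s + -(level P i : ℝ) * w i s = (s - level P i) * w i s := by
    intro i s h1 h2
    rw [hv i s h1 h2]
    ring
  have hev : ∀ i j, (fun s => v i s + -(level P i : ℝ) * w i s) =ᶠ[nhds (level P j : ℝ)]
      fun s => (s - level P i) * w i s := by
    intro i j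
    have : Ioo (0 : ℝ) 1 ∈ nhds (level P j : ℝ) := by
      apply Ioo_mem_nhds
      · linarith [lo j]
      · linarith [hi j]
    filter_upwards [this] with s hs
    exact hψ i s hs.1.le hs.2.le
  refine ⟨fun i s => v i s + -(level P i : ℝ) * w i s, fun i => (hvA i).add
    (AdmX.cmul (AdmC.rat _).neg (hwA i)), ?_, ?_⟩
  · intro i j
    simp only
    rw [hψ i _ (by linarith [lo j]) (by linarith [hi j])]
    by_cases hij : i = j
    · subst hij
      simp
    · rw [hw0 i _ (by linarith [lo j]) (by linarith [hi j]), mul_zero]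
      rcases sep i j hij with h | h
      · right
        have h' : (level P i : ℝ) + 2 * δ ≤ level P j := by exact_mod_cast h
        linarith
      · left
        have h' : (level P j : ℝ) + 2 * δ ≤ level P i := by exact_mod_cast h
        linarith
  · intro i j
    rw [(hev i j).deriv_eq]
    by_cases hij : i = j
    · subst hij
      rw [if_pos rfl]
      have h1 := (hwA i).hasDerivAt (level P i)
      have h2 : HasDerivAt (fun s : ℝ => s - level P i) 1 (level P i : ℝ) :=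
        (hasDerivAt_id _).sub_const _
      have h3 := (h2.mul h1).deriv
      have h4 : (fun s : ℝ => (s - (level P i : ℝ)) * w i s) =
        (fun s : ℝ => s - (level P i : ℝ)) * w i := rfl
      rw [h4, h3, hw1 i _ le_rfl le_rfl]
      simp
    · rw [if_neg hij]
      have hz : (fun s : ℝ => (s - (level P i : ℝ)) * w i s) =ᶠ[nhds (level P j : ℝ)]
          fun _ => 0 := by
        have : Ioo ((level P j : ℝ) - δ) (level P j + δ) ∈ nhds (level P j : ℝ) :=
          Ioo_mem_nhds (by linarith) (by linarith)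
        filter_upwards [this] with s hs
        rw [hw0 i s (by linarith [lo j, hs.1]) (by linarith [hi j, hs.2]), mul_zero]
        rcases sep i j hij with h | h
        · right
          have h' : (level P i : ℝ) + 2 * δ ≤ level P j := by exact_mod_cast h
          linarith [hs.1]
        · left
          have h' : (level P j : ℝ) + 2 * δ ≤ level P i := by exact_mod_cast h
          linarith [hs.2]
      rw [hz.deriv_eq]
      simp

end Vale.Agent.P113
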