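import Vale.Agent.P113.R2.H813.AdmCalc

namespace Vale.Agent.P113

open MeasureTheory Set

/-- one-variable functions which are admissible in each space variable -/
def AdmX (h : ℝ → ℝ) : Prop := ∀ i : Fin 3, Adm fun _ _ x => h (x i)

/-- admissible constants -/
def AdmC (c : ℝ) : Prop := Adm fun _ _ _ => c

theorem AdmC.rat (q : ℚ) : AdmC q := Adm.const q

theorem AdmC.zero : AdmC 0 := Adm.zero

theorem AdmC.one : AdmC 1 := by simpa [AdmC] using Adm.const 1

theorem AdmC.mul {a b : ℝ} (ha : AdmC a) (hb : AdmC b) : AdmC (a * b) := Adm.mul ha hb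

theorem AdmC.add {a b : ℝ} (ha : AdmC a) (hb : AdmC b) : AdmC (a + b) := Adm.add ha hb

theorem AdmC.neg {a : ℝ} (ha : AdmC a) : AdmC (-a) := by
  have h := (AdmC.rat (-1)).mul ha
  simpa using h

theorem AdmC.log {r : ℚ} (hr : 0 < r) : AdmC (Real.log r) := Adm.log hr

theorem AdmC.kappa_inv : AdmC (kappa⁻¹) := by
  have h := Adm.kappa (-1)
  simpa [AdmC, zpow_neg_one] using h

theorem AdmX.add {f g : ℝ → ℝ} (hf : AdmX f) (hg : AdmX g) : AdmX fun s => f s + g s :=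
  fun i => (hf i).add (hg i)

theorem AdmX.mul {f g : ℝ → ℝ} (hf : AdmX f) (hg : AdmX g) : AdmX fun s => f s * g s :=
  fun i => (hf i).mul (hg i)

theorem AdmX.cmul {c : ℝ} {f : ℝ → ℝ} (hc : AdmC c) (hf : AdmX f) : AdmX fun s => c * f s :=
  fun i => Adm.mul hc (hf i)

theorem AdmX.hasDerivAt {f : ℝ → ℝ} (hf : AdmX f) (s : ℝ) : HasDerivAt f (deriv f s) s := by
  obtain ⟨F', -, h⟩ := (hf 0).dx 0
  have h1 := h 0 0 (fun _ => s)
  simp only [Function.update_self] at h1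
  exact h1.differentiableAt.hasDerivAt

theorem AdmX.deriv {f : ℝ → ℝ} (hf : AdmX f) : AdmX (deriv f) := by
  intro i
  obtain ⟨F', hF', h⟩ := (hf i).dx i
  have : (fun (_ _ : ℝ) (x : Fin 3 → ℝ) => _root_.deriv f (x i)) = F' := by
    funext ν t x
    have h1 := h ν t x
    simp only [Function.update_self] at h1
    exact h1.deriv
  rw [this]
  exact hF'

/-- every rational number can be written -/
theorem exists_Rt (q : ℚ) : ∃ r : Rt, r.val = q := by
  refine ⟨⟨q.num, q.den - 1⟩, ?_⟩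
  have hd : 0 < q.den := q.den_pos
  have : ((q.den - 1 : ℕ) : ℚ) + 1 = q.den := by
    have : q.den - 1 + 1 = q.den := Nat.succ_pred_eq_of_pos hd
    exact_mod_cast this
  simp only [Rt.val, this]
  exact q.num_div_den

/-- windows -/
theorem window {a b δ : ℚ} (hab : a ≤ b) (hδ : 0 < δ) (h0 : 0 ≤ a - δ) (h1 : b + δ ≤ 1) :
    ∃ w v : ℝ → ℝ, AdmX w ∧ AdmX v ∧ (∀ s : ℝ, (a : ℝ) ≤ s → s ≤ b → w s = 1) ∧
      (∀ s : ℝ, 0 ≤ s → s ≤ 1 → (s ≤ (a : ℝ) - δ ∨ (b : ℝ) + δ ≤ s) → w s = 0) ∧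
      ∀ s : ℝ, 0 ≤ s → s ≤ 1 → v s = s * w s := by
  obtain ⟨rs, hrs⟩ := exists_Rt (2 / δ)
  obtain ⟨rb, hrb⟩ := exists_Rt (2 / δ * a - 1)
  obtain ⟨rl, hrl⟩ := exists_Rt (2 / δ * (b - a) + 2)
  have hA : 0 < 2 / δ := by positivity
  have hl : 0 < 2 / δ * (b - a) + 2 := by
    have : 0 ≤ 2 / δ * (b - a) := mul_nonneg hA.le (by linarith)
    linarith
  have hA' : (0 : ℝ) < 2 / δ := by exact_mod_cast hA
  have hδ' : (0 : ℝ) < δ := by exact_mod_cast hδ
  have h0' : (0 : ℝ) ≤ a - δ := by exact_mod_cast h0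
  have h1' : (b : ℝ) + δ ≤ 1 := by exact_mod_cast h1
  have hAδ : (2 / δ : ℝ) * δ = 2 := by field_simp
  let g : ℕ → Bump := fun k => ⟨k, rs, rb, Sum.inr rl⟩
  have hg : ∀ k, (g k).Valid := by
    intro k
    refine ⟨by simp only [g, hrs]; exact hA.ne', ?_⟩
    intro l hl'
    simp only [g, Sum.inr.injEq] at hl'
    rw [← hl', hrl]
    exact hl
  have hev : ∀ k s, (g k).eval s =
      s ^ k * plat (2 / δ * (b - a) + 2) (2 / δ * s - (2 / δ * a - 1)) := by
    intro k s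
    simp only [g, Bump.eval, hrs, hrb, hrl]
    push_cast
    rfl
  have hz : ∀ s : ℝ, (s ≤ (a : ℝ) - δ ∨ (b : ℝ) + δ ≤ s) →
      plat (2 / δ * (b - a) + 2) (2 / δ * s - (2 / δ * a - 1)) = 0 := by
    intro s hs
    apply plat_eq_zero (by exact_mod_cast hl.le)
    rcases hs with hs | hs
    · left
      have : (2 / δ : ℝ) * (s - a) ≤ 2 / δ * (-δ) := by
        apply mul_le_mul_of_nonneg_left _ hA'.le
        linarith
      linarith
    · right
      have : (2 / δ : ℝ) * δ ≤ 2 / δ * (s - b) := by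
        apply mul_le_mul_of_nonneg_left _ hA'.le
        linarith
      linarith
  have hsupp : ∀ k s, s ≤ 0 ∨ 1 ≤ s → (g k).eval s = 0 := by
    intro k s hs
    rw [hev, hz s, mul_zero]
    rcases hs with hs | hs
    · left; linarith
    · right; linarith
  have hper : ∀ k (s : ℝ), 0 ≤ s → s ≤ 1 → per (g k).eval s = (g k).eval s := by
    intro k s hs0 hs1
    have := per_eq (hsupp k) (y := s) 0 (by simpa using hs0) (by simpa using hs1)
    simpa using this
  have hone : ∀ s : ℝ, (a : ℝ) ≤ s → s ≤ b →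
      plat (2 / δ * (b - a) + 2) (2 / δ * s - (2 / δ * a - 1)) = kappa := by
    intro s hs1 hs2
    apply plat_eq_kappa
    · have : 0 ≤ (2 / δ : ℝ) * (s - a) := mul_nonneg hA'.le (by linarith)
      linarith
    · have : (2 / δ : ℝ) * (s - a) ≤ 2 / δ * (b - a) := by
        apply mul_le_mul_of_nonneg_left _ hA'.le
        linarith
      linarith
  refine ⟨fun s => kappa⁻¹ * per (g 0).eval s, fun s => kappa⁻¹ * per (g 1).eval s,
    AdmX.cmul AdmC.kappa_inv (fun i => Adm.space _ (hg 0) i),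
    AdmX.cmul AdmC.kappa_inv (fun i => Adm.space _ (hg 1) i), ?_, ?_, ?_⟩
  · intro s hs1 hs2
    have hs0 : 0 ≤ s := by linarith
    have hs3 : s ≤ 1 := by linarith
    simp only
    rw [hper 0 s hs0 hs3, hev, pow_zero, one_mul, hone s hs1 hs2]
    exact inv_mul_cancel₀ kappa_pos.ne'
  · intro s hs0 hs1 hs
    simp only
    rw [hper 0 s hs0 hs1, hev, hz s hs]
    simp
  · intro s hs0 hs1
    simp only
    rw [hper 0 s hs0 hs1, hper 1 s hs0 hs1, hev, hev]
    ring

end Vale.Agent.P113
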